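import Mathlib.Combinatorics.Hall.Basic
import Mathlib.Algebra.BigOperators.Group.Finset.Basic
import Mathlib.Algebra.Order.BigOperators.Group.Finset
import Mathlib.Data.Fintype.BigOperators
import Mathlib.Data.Fintype.Prod
import Mathlib.Data.Fintype.Sum
import Mathlib.Tactic

/-!
# Two disjoint matchings from a Hall condition with multiplicity two

`two_matchings`: every `b : B` has three corners `F b 0, F b 1, F b 2` in `Φ`; `V` is a finite set
of `Φ` with `|V| = |B|`; if `2 |K| ≤ Σ_b min 2 #{c | F b c ∈ K}` for every `K ⊆ V` then there are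
`f g : B → Fin 3` with `f b ≠ g b` such that `b ↦ F b (f b)` and `b ↦ F b (g b)` are bijections
onto `V`.
-/

namespace Vale.Agent.P039.H484

open Finset

section types

variable {B Φ : Type*} [Fintype B] [DecidableEq B] [DecidableEq Φ]

/-- the corners: `inl (v, i)` wants a corner at `v`, `inr b` wants a corner of `b` -/
def tt (F : B → Fin 3 → Φ) (V : Finset Φ) : (V × Fin 2) ⊕ B → Finset (B × Fin 3)
  | Sum.inl x => univ.filter fun p => F p.1 p.2 = x.1
  | Sum.inr b => univ.filter fun p => p.1 = b

theorem hall_cond (F : B → Fin 3 → Φ) (V : Finset Φ)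
    (h : ∀ K ⊆ V, 2 * K.card ≤ ∑ b : B, min 2 (univ.filter fun c => F b c ∈ K).card)
    (s : Finset ((V × Fin 2) ⊕ B)) : s.card ≤ (s.biUnion (tt F V)).card := by
  classical
  set K : Finset Φ := (s.toLeft).image (fun x => (x.1 : Φ)) with hK
  set D : Finset B := s.toRight with hD
  have hKV : K ⊆ V := by
    intro v hv
    simp only [hK, mem_image] at hv
    obtain ⟨x, -, rfl⟩ := hv
    exact x.1.2
  have hs : s.card ≤ 2 * K.card + D.card := by
    have h1 : s.toLeft.card + D.card = s.card := card_toLeft_add_card_toRight
    have h2 : s.toLeft.card ≤ (K ×ˢ (univ : Finset (Fin 2))).card := by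
      refine card_le_card_of_injOn (fun x => ((x.1 : Φ), x.2)) ?_ ?_
      · intro x hx
        simp only [coe_product, Set.mem_prod, mem_coe, mem_univ, and_true]
        exact mem_image_of_mem _ hx
      · rintro ⟨x, i⟩ - ⟨y, j⟩ - hxy
        simp only [Prod.mk.injEq] at hxy
        exact Prod.ext (Subtype.ext hxy.1) hxy.2
    rw [card_product] at h2
    simp only [card_univ, Fintype.card_fin] at h2
    omega
  -- the union contains all corners of `D` and all corners in `K`
  have hU : ∀ b : B, (if b ∈ D then 3 else (univ.filter fun c => F b c ∈ K).card) ≤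
      ((s.biUnion (tt F V)).filter fun p => p.1 = b).card := by
    intro b
    split_ifs with hb
    · have : ((univ : Finset (Fin 3)).image fun c => (b, c)).card = 3 := by
        rw [card_image_of_injective _ (fun x y hxy => by simpa using hxy)]
        rfl
      refine this.symm.le.trans (card_le_card ?_)
      intro p hp
      simp only [mem_image, mem_univ, true_and] at hp
      obtain ⟨c, rfl⟩ := hp
      simp only [mem_filter, mem_biUnion, and_true]
      exact ⟨Sum.inr b, by simpa [hD] using hb, by simp [tt]⟩
    · have : ((univ.filter fun c => F b c ∈ K).image fun c => (b, c)).card =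
          (univ.filter fun c => F b c ∈ K).card :=
        card_image_of_injective _ (fun x y hxy => by simpa using hxy)
      refine this.symm.le.trans (card_le_card ?_)
      intro p hp
      simp only [mem_image, mem_filter, mem_univ, true_and] at hp
      obtain ⟨c, hc, rfl⟩ := hp
      simp only [mem_filter, mem_biUnion, and_true]
      rw [hK, mem_image] at hc
      obtain ⟨x, hx, hx2⟩ := hc
      exact ⟨Sum.inl x, by simpa using hx, by simp [tt, hx2]⟩
  have hsum : (s.biUnion (tt F V)).card =
      ∑ b : B, ((s.biUnion (tt F V)).filter fun p => p.1 = b).card :=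
    card_eq_sum_card_fiberwise (fun _ _ => mem_univ _)
  have h3 : ∑ b : B, (if b ∈ D then 3 else (univ.filter fun c => F b c ∈ K).card) ≥
      ∑ b : B, (min 2 (univ.filter fun c => F b c ∈ K).card + if b ∈ D then 1 else 0) := by
    apply sum_le_sum
    intro b _
    split_ifs
    · have := min_le_left 2 (univ.filter fun c => F b c ∈ K).card
      omega
    · have := min_le_right 2 (univ.filter fun c => F b c ∈ K).card
      omega
  have h4 : ∑ b : B, (if b ∈ D then 1 else 0) = D.card := by
    simp
  have h5 := h K hKV
  rw [sum_add_distrib, h4] at h3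
  have h6 := sum_le_sum (s := (univ : Finset B)) (fun b _ => hU b)
  rw [← hsum] at h6
  omega

theorem two_matchings (F : B → Fin 3 → Φ) (V : Finset Φ) (hcard : V.card = Fintype.card B)
    (h : ∀ K ⊆ V, 2 * K.card ≤ ∑ b : B, min 2 (univ.filter fun c => F b c ∈ K).card) :
    ∃ f g : B → Fin 3, (∀ b, f b ≠ g b) ∧
      (∀ b, F b (f b) ∈ V) ∧ (∀ b, F b (g b) ∈ V) ∧
      (Function.Injective fun b => F b (f b)) ∧ (Function.Injective fun b => F b (g b)) ∧
      (∀ v ∈ V, ∃ b, F b (f b) = v) ∧ (∀ v ∈ V, ∃ b, F b (g b) = v) := by
  classical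
  obtain ⟨e, he, ht⟩ :=
    (Finset.all_card_le_biUnion_card_iff_exists_injective (tt F V)).1 (hall_cond F V h)
  -- `e` is bijective
  have hce : Fintype.card ((V × Fin 2) ⊕ B) = Fintype.card (B × Fin 3) := by
    simp only [Fintype.card_sum, Fintype.card_prod, Fintype.card_coe, Fintype.card_fin, hcard]
    ring
  have hbij : Function.Bijective e := (Fintype.bijective_iff_injective_and_card e).2 ⟨he, hce⟩
  have hl : ∀ x : V × Fin 2, F (e (Sum.inl x)).1 (e (Sum.inl x)).2 = x.1 := by
    intro x
    simpa [tt] using ht (Sum.inl x)
  have hr : ∀ b : B, (e (Sum.inr b)).1 = b := by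
    intro b
    simpa [tt] using ht (Sum.inr b)
  set k : B → Fin 3 := fun b => (e (Sum.inr b)).2 with hk
  -- a corner which is not `k b` is assigned to its face
  have hcor : ∀ b c, c ≠ k b → ∃ x : V × Fin 2, e (Sum.inl x) = (b, c) := by
    intro b c hc
    obtain ⟨y, hy⟩ := hbij.2 (b, c)
    rcases y with x | b'
    · exact ⟨x, hy⟩
    · exfalso
      have h1 : b' = b := by
        have := hr b'
        rw [hy] at this
        exact this.symm
      subst h1
      apply hc
      simp [hk, hy]
  have hnk : ∀ x : V × Fin 2, (e (Sum.inl x)).2 ≠ k (e (Sum.inl x)).1 := by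
    intro x hx
    have h1 : e (Sum.inr (e (Sum.inl x)).1) = e (Sum.inl x) := by
      apply Prod.ext
      · exact hr _
      · exact hx.symm
    exact absurd (he h1) (by simp)
  -- every face of `V` has exactly two corners different from `k`
  have hmem : ∀ b c, c ≠ k b → F b c ∈ V := by
    intro b c hc
    obtain ⟨x, hx⟩ := hcor b c hc
    have := hl x
    rw [hx] at this
    simp only at this
    rw [this]
    exact x.1.2
  have htwo : ∀ v ∈ V, ((univ : Finset (B × Fin 3)).filter
      fun p => p.2 ≠ k p.1 ∧ F p.1 p.2 = v).card = 2 := by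
    intro v hv
    have : ((univ : Finset (Fin 2)).image fun i => e (Sum.inl (⟨v, hv⟩, i))) =
        (univ : Finset (B × Fin 3)).filter fun p => p.2 ≠ k p.1 ∧ F p.1 p.2 = v := by
      ext p
      simp only [mem_image, mem_univ, true_and, mem_filter]
      constructor
      · rintro ⟨i, rfl⟩
        exact ⟨hnk _, hl _⟩
      · rintro ⟨h1, h2⟩
        obtain ⟨x, hx⟩ := hcor p.1 p.2 h1
        refine ⟨x.2, ?_⟩
        have h3 := hl x
        rw [hx] at h3
        simp only at h3
        have h4 : x = (⟨v, hv⟩, x.2) := by
          apply Prod.ext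
          · apply Subtype.ext
            simp only
            rw [← h3, h2]
          · rfl
        rw [← h4, hx]
    rw [← this, card_image_of_injective _ (fun x y hxy => by
      have := he hxy
      simpa using this)]
    rfl
  -- Hall for the first matching
  have hA : ∀ S : Finset B, S.card ≤
      (S.biUnion fun b => (univ.filter fun c => c ≠ k b).image fun c => F b c).card := by
    intro S
    set T := S.biUnion fun b => (univ.filter fun c => c ≠ k b).image fun c => F b c with hT
    have hTV : T ⊆ V := by
      intro v hv
      simp only [hT, mem_biUnion, mem_image, mem_filter, mem_univ, true_and] at hv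
      obtain ⟨b, -, c, hc, rfl⟩ := hv
      exact hmem b c hc
    -- count corners
    set P := (univ : Finset (B × Fin 3)).filter fun p => p.1 ∈ S ∧ p.2 ≠ k p.1 with hP
    have h1 : P.card = 2 * S.card := by
      have : P.card = ∑ b ∈ S, (P.filter fun p => p.1 = b).card :=
        card_eq_sum_card_fiberwise (fun p hp => by
          simp only [hP, coe_filter, mem_univ, true_and, Set.mem_ofPred_eq] at hp
          exact hp.1)
      rw [this]
      have h2 : ∀ b ∈ S, (P.filter fun p => p.1 = b).card = 2 := by
        intro b hb
        have h3 : (P.filter fun p => p.1 = b) =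
            ((univ : Finset (Fin 3)).erase (k b)).image fun c => (b, c) := by
          ext ⟨b', c⟩
          simp only [hP, mem_filter, mem_univ, true_and, mem_image, mem_erase, and_true,
            Prod.mk.injEq]
          constructor
          · rintro ⟨⟨_, h5⟩, rfl⟩
            exact ⟨c, h5, rfl, rfl⟩
          · rintro ⟨c', h5, rfl, rfl⟩
            exact ⟨⟨hb, h5⟩, rfl⟩
        rw [h3, card_image_of_injective _ (fun x y hxy => by simpa using hxy),
          card_erase_of_mem (mem_univ _)]
        rfl
      rw [sum_congr rfl h2]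
      simp [mul_comm]
    have h2 : P.card ≤ 2 * T.card := by
      have : P.card = ∑ v ∈ T, (P.filter fun p => F p.1 p.2 = v).card :=
        card_eq_sum_card_fiberwise (fun p hp => by
          simp only [hP, coe_filter, mem_univ, true_and, Set.mem_ofPred_eq] at hp
          simp only [hT, coe_biUnion, Set.mem_iUnion, mem_coe, mem_image, mem_filter, mem_univ,
            true_and]
          exact ⟨p.1, hp.1, p.2, hp.2, rfl⟩)
      rw [this]
      calc ∑ v ∈ T, (P.filter fun p => F p.1 p.2 = v).card ≤ ∑ v ∈ T, 2 := by
            apply sum_le_sum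
            intro v hv
            rw [← htwo v (hTV hv)]
            apply card_le_card
            intro p hp
            simp only [hP, mem_filter, mem_univ, true_and] at hp ⊢
            exact ⟨hp.1.2, hp.2⟩
        _ = 2 * T.card := by simp [mul_comm]
    omega
  obtain ⟨φ, hφ, hφm⟩ := (Finset.all_card_le_biUnion_card_iff_exists_injective
    (fun b => (univ.filter fun c => c ≠ k b).image fun c => F b c)).1 hA
  have hf : ∀ b, ∃ c, c ≠ k b ∧ F b c = φ b := by
    intro b
    have := hφm b
    simpa [mem_image, mem_filter] using this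
  choose f hfk hfφ using hf
  have hg : ∀ b, ∃ c, c ≠ k b ∧ c ≠ f b := by
    intro b
    have h1 : (univ \ {k b, f b} : Finset (Fin 3)).Nonempty := by
      rw [← card_pos]
      have h2 := le_card_sdiff ({k b, f b} : Finset (Fin 3)) (univ : Finset (Fin 3))
      have h3 : ({k b, f b} : Finset (Fin 3)).card ≤ 2 := card_le_two
      have h4 : (univ : Finset (Fin 3)).card = 3 := rfl
      omega
    obtain ⟨c, hc⟩ := h1
    simp only [mem_sdiff, mem_univ, mem_insert, mem_singleton, true_and, not_or] at hc
    exact ⟨c, hc.1, hc.2⟩
  choose g hgk hgf using hg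
  have hfV : ∀ b, F b (f b) ∈ V := fun b => hmem b _ (hfk b)
  have hgV : ∀ b, F b (g b) ∈ V := fun b => hmem b _ (hgk b)
  have hfi : Function.Injective fun b => F b (f b) := by
    intro a b hab
    simp only [hfφ] at hab
    exact hφ hab
  have hsurj : ∀ (u : B → Fin 3), (∀ b, F b (u b) ∈ V) → (Function.Injective fun b => F b (u b)) →
      ∀ v ∈ V, ∃ b, F b (u b) = v := by
    intro u huV hui v hv
    have h1 : (univ.image fun b => F b (u b)) = V := by
      apply eq_of_subset_of_card_le
      · intro w hw
        simp only [mem_image, mem_univ, true_and] at hw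
        obtain ⟨b, rfl⟩ := hw
        exact huV b
      · rw [card_image_of_injective _ hui, card_univ, hcard]
    rw [← h1] at hv
    simpa using hv
  have hfs := hsurj f hfV hfi
  have hgi : Function.Injective fun b => F b (g b) := by
    intro a b hab
    by_contra hne
    simp only at hab
    obtain ⟨d, hd⟩ := hfs (F a (g a)) (hgV a)
    have h1 := htwo (F a (g a)) (hgV a)
    have h2 : ({(a, g a), (b, g b), (d, f d)} : Finset (B × Fin 3)) ⊆
        (univ : Finset (B × Fin 3)).filter fun p => p.2 ≠ k p.1 ∧ F p.1 p.2 = F a (g a) := by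
      intro p hp
      simp only [mem_insert, mem_singleton] at hp
      simp only [mem_filter, mem_univ, true_and]
      rcases hp with rfl | rfl | rfl
      · exact ⟨hgk a, rfl⟩
      · exact ⟨hgk b, hab.symm⟩
      · exact ⟨hfk d, hd⟩
    have h3 := card_le_card h2
    rw [h1] at h3
    have h4 : ({(a, g a), (b, g b), (d, f d)} : Finset (B × Fin 3)).card = 3 := by
      rw [card_eq_three]
      refine ⟨(a, g a), (b, g b), (d, f d), ?_, ?_, ?_, rfl⟩
      · intro h5
        exact hne (Prod.mk.inj h5).1
      · intro h5
        have h6 := Prod.mk.inj h5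
        exact hgf a (by rw [h6.2, ← h6.1])
      · intro h5
        have h6 := Prod.mk.inj h5
        exact hgf b (by rw [h6.2, ← h6.1])
    omega
  exact ⟨f, g, fun b => (hgf b).symm, hfV, hgV, hfi, hgi, hfs, hsurj g hgV hgi⟩

/-- The version with a finite set `B'` of blacks. -/
theorem two_matchings' {β Φ : Type*} [DecidableEq β] [DecidableEq Φ] (F : β → Fin 3 → Φ)
    (B' : Finset β) (V : Finset Φ) (hcard : V.card = B'.card)
    (h : ∀ K ⊆ V, 2 * K.card ≤ ∑ b ∈ B', min 2 (univ.filter fun c => F b c ∈ K).card) :
    ∃ f g : β → Fin 3, (∀ b, f b ≠ g b) ∧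
      Set.BijOn (fun b => F b (f b)) (B' : Set β) (V : Set Φ) ∧
      Set.BijOn (fun b => F b (g b)) (B' : Set β) (V : Set Φ) := by
  classical
  obtain ⟨f, g, hfg, hfV, hgV, hfi, hgi, hfs, hgs⟩ :=
    two_matchings (B := B') (fun b c => F b.1 c) V (by simpa using hcard) (by
      intro K hK
      have := h K hK
      rw [← sum_coe_sort B' (fun b => min 2 (univ.filter fun c => F b c ∈ K).card)] at this
      exact this)
  refine ⟨fun b => if hb : b ∈ B' then f ⟨b, hb⟩ else 0,
    fun b => if hb : b ∈ B' then g ⟨b, hb⟩ else 1, ?_, ?_, ?_⟩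
  · intro b
    simp only
    split_ifs with hb
    · exact hfg _
    · decide
  · refine ⟨?_, ?_, ?_⟩
    · intro b hb
      have hb' : b ∈ B' := hb
      simp only [hb', dif_pos]
      exact hfV ⟨b, hb'⟩
    · intro a ha b hb hab
      have ha' : a ∈ B' := ha
      have hb' : b ∈ B' := hb
      simp only [ha', hb', dif_pos] at hab
      have := @hfi ⟨a, ha'⟩ ⟨b, hb'⟩ hab
      simpa using this
    · intro v hv
      obtain ⟨b, hb⟩ := hfs v hv
      exact ⟨b.1, b.2, by simpa [b.2] using hb⟩
  · refine ⟨?_, ?_, ?_⟩
    · intro b hb
      have hb' : b ∈ B' := hb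
      simp only [hb', dif_pos]
      exact hgV ⟨b, hb'⟩
    · intro a ha b hb hab
      have ha' : a ∈ B' := ha
      have hb' : b ∈ B' := hb
      simp only [ha', hb', dif_pos] at hab
      have := @hgi ⟨a, ha'⟩ ⟨b, hb'⟩ hab
      simpa using this
    · intro v hv
      obtain ⟨b, hb⟩ := hgs v hv
      exact ⟨b.1, b.2, by simpa [b.2] using hb⟩

/-- The version over `Option V` (`none` = a root face), in the form used by Step 4. -/
theorem two_matchings_option {B V : Type*} [Fintype B] [Fintype V] [DecidableEq B] [DecidableEq V]
    (F : B → Fin 3 → Option V) (hcard : Fintype.card B = Fintype.card V)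
    (h : ∀ K : Finset V, 2 * K.card ≤
      ∑ b : B, min 2 (univ.filter fun c => ∃ v ∈ K, F b c = some v).card) :
    ∃ (f g : B → Fin 3) (e e' : B ≃ V), (∀ b, f b ≠ g b) ∧
      (∀ b, F b (f b) = some (e b)) ∧ (∀ b, F b (g b) = some (e' b)) := by
  classical
  obtain ⟨f, g, hfg, hfV, hgV, hfi, hgi, hfs, hgs⟩ :=
    two_matchings F ((univ : Finset V).map Function.Embedding.some)
      (by simp [hcard]) (by
      intro K hK
      have h1 : K = (univ.filter fun v : V => some v ∈ K).map Function.Embedding.some := by
        ext o
        simp only [mem_map, mem_filter, mem_univ, true_and, Function.Embedding.some_apply]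
        constructor
        · intro ho
          have := hK ho
          simp only [mem_map, mem_univ, true_and, Function.Embedding.some_apply] at this
          obtain ⟨v, rfl⟩ := this
          exact ⟨v, ho, rfl⟩
        · rintro ⟨v, hv, rfl⟩
          exact hv
      have h2 := h (univ.filter fun v : V => some v ∈ K)
      have h3 : K.card = (univ.filter fun v : V => some v ∈ K).card := by
        conv_lhs => rw [h1]
        rw [card_map]
      rw [h3]
      refine h2.trans (le_of_eq (sum_congr rfl fun b _ => ?_))
      congr 2
      ext c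
      simp only [mem_filter, mem_univ, true_and]
      constructor
      · rintro ⟨v, hv, h4⟩
        rw [h4]
        exact hv
      · intro h4
        have := hK h4
        simp only [mem_map, mem_univ, true_and, Function.Embedding.some_apply] at this
        obtain ⟨v, hv⟩ := this
        exact ⟨v, by rw [hv]; exact h4, hv.symm⟩)
  have key : ∀ u : B → Fin 3, (∀ b, F b (u b) ∈ (univ : Finset V).map Function.Embedding.some) →
      (Function.Injective fun b => F b (u b)) → ∃ e : B ≃ V, ∀ b, F b (u b) = some (e b) := by
    intro u huV hui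
    have h1 : ∀ b, ∃ v, F b (u b) = some v := by
      intro b
      have := huV b
      simp only [mem_map, mem_univ, true_and, Function.Embedding.some_apply] at this
      obtain ⟨v, hv⟩ := this
      exact ⟨v, hv.symm⟩
    choose φ hφ using h1
    have h2 : Function.Injective φ := by
      intro a b hab
      apply hui
      simp only
      rw [hφ, hφ, hab]
    exact ⟨Equiv.ofBijective φ ((Fintype.bijective_iff_injective_and_card φ).2 ⟨h2, hcard⟩), hφ⟩
  obtain ⟨e, he⟩ := key f hfV hfi
  obtain ⟨e', he'⟩ := key g hgV hgi
  exact ⟨f, g, e, e', hfg, he, he'⟩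

end types

end Vale.Agent.P039.H484

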