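import Vale.Agent.P039.Bn.Defs
import Vale.Agent.P039.Bn.L2.Rank
import Vale.Agent.P039.H484.Hall2
import Mathlib.Tactic

/-!
# Step 5b, 5c: the Hall condition from cyclic 4-edge-connectivity
-/

set_option linter.unusedSectionVars false

namespace Vale.Agent.P039.H484

open Finset Vale.Agent.P039.Bn

variable {B W V : Type}

section defs

variable [DecidableEq V] (M : PMap B W V) (K : Finset V)

/-- number of faces of `K` at the black `b` -/
def nb (b : B) : ℕ := (univ.filter fun j : Fin 3 => M.c j b ∈ K).card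

/-- number of faces of `K` at the white `w` -/
def nw (w : W) : ℕ := (univ.filter fun j : Fin 3 => M.cw j w ∈ K).card

/-- the edge `(b, i)` lies on the boundary of a face of `K` -/
def OnK (p : B × Fin 3) : Prop := M.c (p.2 + 1) p.1 ∈ K ∨ M.c (p.2 + 2) p.1 ∈ K

instance (p : B × Fin 3) : Decidable (OnK M K p) := by unfold OnK; infer_instance

/-- the edges on the boundary of a face of `K` -/
def EK [Fintype B] : Finset (B × Fin 3) := univ.filter fun p => OnK M K p

end defs

/-- number of edges with a side in `K` at a vertex with `n` faces in `K` -/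
def gg : ℕ → ℕ
  | 0 => 0
  | 1 => 2
  | _ => 3

theorem gg_count (P : Fin 3 → Bool) :
    (univ.filter fun i : Fin 3 => P (i + 1) = true ∨ P (i + 2) = true).card =
      gg (univ.filter fun j : Fin 3 => P j = true).card := by
  revert P; decide

theorem one_count (P : Fin 3 → Bool) :
    (univ.filter fun i : Fin 3 => ¬ (P (i + 1) = true ∨ P (i + 2) = true) ∧
      0 < (univ.filter fun j : Fin 3 => P j = true).card).card =
      if (univ.filter fun j : Fin 3 => P j = true).card = 1 then 1 else 0 := by
  revert P; decide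

theorem le3_count (P : Fin 3 → Bool) :
    (univ.filter fun j : Fin 3 => P j = true).card ≤ 3 := by
  revert P; decide

section count

variable [Fintype B] [Fintype W] [DecidableEq V] (M : PMap B W V) (K : Finset V)

theorem nb_pos (b : B) : 0 < nb M K b ↔ ∃ j, M.c j b ∈ K := by
  unfold nb
  rw [card_pos]
  constructor
  · rintro ⟨j, hj⟩
    exact ⟨j, (mem_filter.1 hj).2⟩
  · rintro ⟨j, hj⟩
    exact ⟨j, mem_filter.2 ⟨mem_univ _, hj⟩⟩

theorem nw_pos (w : W) : 0 < nw M K w ↔ ∃ j, M.cw j w ∈ K := by
  unfold nw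
  rw [card_pos]
  constructor
  · rintro ⟨j, hj⟩
    exact ⟨j, (mem_filter.1 hj).2⟩
  · rintro ⟨j, hj⟩
    exact ⟨j, mem_filter.2 ⟨mem_univ _, hj⟩⟩

theorem onK_white (i : Fin 3) (b : B) : OnK M K (b, i) ↔
    (M.cw (i + 1) (M.e i b) ∈ K ∨ M.cw (i + 2) (M.e i b) ∈ K) := by
  unfold OnK
  rw [M.cw_e (i + 1) i (fne1 i).symm, M.cw_e (i + 2) i (fne2 i).symm]

theorem onK_symm (i : Fin 3) (w : W) : OnK M K ((M.e i).symm w, i) ↔
    (M.cw (i + 1) w ∈ K ∨ M.cw (i + 2) w ∈ K) := by
  rw [onK_white, Equiv.apply_symm_apply]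

theorem nb_pos_of_onK {p : B × Fin 3} (h : OnK M K p) : 0 < nb M K p.1 := by
  rw [nb_pos]
  rcases h with h | h
  · exact ⟨_, h⟩
  · exact ⟨_, h⟩

theorem nw_pos_of_onK {p : B × Fin 3} (h : OnK M K p) : 0 < nw M K (M.e p.2 p.1) := by
  rw [nw_pos]
  obtain ⟨b, i⟩ := p
  rw [onK_white] at h
  rcases h with h | h
  · exact ⟨_, h⟩
  · exact ⟨_, h⟩

theorem sum_black (f : B → Fin 3 → ℕ) :
    ∑ p : B × Fin 3, f p.1 p.2 = ∑ b, ∑ i, f b i := Fintype.sum_prod_type _

theorem sum_white (f : B → Fin 3 → ℕ) :
    ∑ p : B × Fin 3, f p.1 p.2 = ∑ w, ∑ i, f ((M.e i).symm w) i := by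
  rw [Fintype.sum_prod_type, sum_comm, sum_comm (s := (univ : Finset W))]
  refine sum_congr rfl fun i _ => ?_
  exact (Equiv.sum_comp (M.e i).symm (fun b => f b i)).symm

theorem card_black (P : B × Fin 3 → Prop) [DecidablePred P] :
    (univ.filter P).card = ∑ b, (univ.filter fun i => P (b, i)).card := by
  rw [card_filter, Fintype.sum_prod_type]
  exact sum_congr rfl fun b _ => (card_filter _ _).symm

theorem card_white (P : B × Fin 3 → Prop) [DecidablePred P] :
    (univ.filter P).card = ∑ w, (univ.filter fun i => P ((M.e i).symm w, i)).card := by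
  rw [card_filter]
  have := sum_white M (fun b i => if P (b, i) then 1 else 0)
  simp only [Prod.mk.eta] at this
  rw [this]
  exact sum_congr rfl fun b _ => (card_filter _ _).symm

theorem card_EK_black : (EK M K).card = ∑ b, gg (nb M K b) := by
  unfold EK
  rw [card_black]
  refine sum_congr rfl fun b _ => ?_
  have := gg_count fun j => decide (M.c j b ∈ K)
  simp only [decide_eq_true_eq] at this
  exact this

theorem card_EK_white : (EK M K).card = ∑ w, gg (nw M K w) := by
  unfold EK
  rw [card_white M]
  refine sum_congr rfl fun w _ => ?_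
  have := gg_count fun j => decide (M.cw j w ∈ K)
  simp only [decide_eq_true_eq] at this
  simp only [onK_symm]
  exact this

theorem card_one_black : (univ.filter fun p : B × Fin 3 => ¬ OnK M K p ∧ 0 < nb M K p.1).card =
    (univ.filter fun b => nb M K b = 1).card := by
  rw [card_black, card_filter]
  refine sum_congr rfl fun b _ => ?_
  have := one_count fun j => decide (M.c j b ∈ K)
  simp only [decide_eq_true_eq] at this
  exact this

theorem card_one_white :
    (univ.filter fun p : B × Fin 3 => ¬ OnK M K p ∧ 0 < nw M K (M.e p.2 p.1)).card =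
    (univ.filter fun w => nw M K w = 1).card := by
  rw [card_white M, card_filter]
  refine sum_congr rfl fun w _ => ?_
  have := one_count fun j => decide (M.cw j w ∈ K)
  simp only [decide_eq_true_eq] at this
  simp only [onK_symm, Equiv.apply_symm_apply]
  exact this

/-- the numbers of edges between the four parts -/
theorem counts :
    ∃ ch b' w' E' : ℕ,
      (univ.filter fun p : B × Fin 3 => 0 < nb M K p.1 ∧ ¬ 0 < nw M K (M.e p.2 p.1)).card = b' ∧
      (univ.filter fun p : B × Fin 3 => ¬ 0 < nb M K p.1 ∧ 0 < nw M K (M.e p.2 p.1)).card = w' ∧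
      (univ.filter fun b => nb M K b = 1).card = ch + b' ∧
      (univ.filter fun w => nw M K w = 1).card = ch + w' ∧
      3 * (univ.filter fun b => 0 < nb M K b).card = E' + b' ∧
      3 * (univ.filter fun w => 0 < nw M K w).card = E' + w' := by
  refine ⟨(univ.filter fun p : B × Fin 3 => ¬ OnK M K p ∧ 0 < nb M K p.1 ∧
    0 < nw M K (M.e p.2 p.1)).card, _, _,
    (univ.filter fun p : B × Fin 3 => 0 < nb M K p.1 ∧ 0 < nw M K (M.e p.2 p.1)).card,
    rfl, rfl, ?_, ?_, ?_, ?_⟩
  · rw [← card_one_black, ← card_filter_add_card_filter_not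
      (s := univ.filter fun p : B × Fin 3 => ¬ OnK M K p ∧ 0 < nb M K p.1)
      (fun p => 0 < nw M K (M.e p.2 p.1)), filter_filter, filter_filter]
    congr 2
    · ext p
      simp only [mem_filter, mem_univ, true_and, and_assoc]
    · ext p
      simp only [mem_filter, mem_univ, true_and]
      constructor
      · rintro ⟨⟨_, h1⟩, h2⟩
        exact ⟨h1, h2⟩
      · rintro ⟨h1, h2⟩
        exact ⟨⟨fun h => h2 (nw_pos_of_onK M K h), h1⟩, h2⟩
  · rw [← card_one_white, ← card_filter_add_card_filter_not
      (s := univ.filter fun p : B × Fin 3 => ¬ OnK M K p ∧ 0 < nw M K (M.e p.2 p.1))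
      (fun p => 0 < nb M K p.1), filter_filter, filter_filter]
    congr 2
    · ext p
      simp only [mem_filter, mem_univ, true_and, and_assoc]
      tauto
    · ext p
      simp only [mem_filter, mem_univ, true_and]
      constructor
      · rintro ⟨⟨_, h1⟩, h2⟩
        exact ⟨h2, h1⟩
      · rintro ⟨h1, h2⟩
        exact ⟨⟨fun h => h1 (nb_pos_of_onK M K h), h2⟩, h1⟩
  · have h1 : (univ.filter fun p : B × Fin 3 => 0 < nb M K p.1).card =
        3 * (univ.filter fun b => 0 < nb M K b).card := by
      rw [card_black, card_filter, mul_sum]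
      refine sum_congr rfl fun b _ => ?_
      by_cases h : 0 < nb M K b
      · simp [h]
      · simp [h]
    rw [← h1, ← card_filter_add_card_filter_not
      (s := univ.filter fun p : B × Fin 3 => 0 < nb M K p.1)
      (fun p => 0 < nw M K (M.e p.2 p.1)), filter_filter, filter_filter]
  · have h1 : (univ.filter fun p : B × Fin 3 => 0 < nw M K (M.e p.2 p.1)).card =
        3 * (univ.filter fun w => 0 < nw M K w).card := by
      rw [card_white M, card_filter, mul_sum]
      refine sum_congr rfl fun w _ => ?_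
      simp only [Equiv.apply_symm_apply]
      by_cases h : 0 < nw M K w
      · simp [h]
      · simp [h]
    rw [← h1, ← card_filter_add_card_filter_not
      (s := univ.filter fun p : B × Fin 3 => 0 < nw M K (M.e p.2 p.1))
      (fun p => 0 < nb M K p.1), filter_filter, filter_filter]
    congr 2
    · ext p
      simp only [mem_filter, mem_univ, true_and]
      tauto
    · ext p
      simp only [mem_filter, mem_univ, true_and]
      tauto

theorem sum_gg {X : Type} [Fintype X] (n : X → ℕ) :
    ∑ x, gg (n x) = 3 * (univ.filter fun x => 2 ≤ n x).card +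
      2 * (univ.filter fun x => n x = 1).card := by
  rw [card_filter, card_filter, mul_sum, mul_sum, ← sum_add_distrib]
  refine sum_congr rfl fun x _ => ?_
  rcases h : n x with _ | _ | m
  · simp [gg]
  · simp [gg]
  · simp [gg]

theorem card_posi {X : Type} [Fintype X] (n : X → ℕ) :
    (univ.filter fun x => 0 < n x).card = (univ.filter fun x => 2 ≤ n x).card +
      (univ.filter fun x => n x = 1).card := by
  rw [card_filter, card_filter, card_filter, ← sum_add_distrib]
  refine sum_congr rfl fun x _ => ?_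
  rcases h : n x with _ | _ | m
  · simp
  · simp
  · simp

theorem sum_min {X : Type} [Fintype X] (n : X → ℕ) :
    ∑ x, min 2 (n x) = 2 * (univ.filter fun x => 2 ≤ n x).card +
      (univ.filter fun x => n x = 1).card := by
  rw [card_filter, card_filter, mul_sum, ← sum_add_distrib]
  refine sum_congr rfl fun x _ => ?_
  rcases h : n x with _ | _ | m
  · simp
  · simp
  · simp

end count

section rank

variable [Fintype B] [Fintype W] [Fintype V] [DecidableEq B] [DecidableEq W] [DecidableEq V]
  (M : PMap B W V) (K : Finset V)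

/-- `K` does not fall into two parts which are not met by a common black. -/
def ConnK : Prop := ∀ K1 ⊆ K, K1.Nonempty →
  (∀ b, (∀ j, M.c j b ∈ K → M.c j b ∈ K1) ∨ (∀ j, M.c j b ∈ K → M.c j b ∉ K1)) → K1 = K

/-- the vertices on the faces of `K` -/
abbrev XK : Type := {b : B // 0 < nb M K b} ⊕ {w : W // 0 < nw M K w}

/-- extension by zero -/
def extK (x : K → ℚ) (v : V) : ℚ := if h : v ∈ K then x ⟨v, h⟩ else 0

theorem extK_add (x y : K → ℚ) (v : V) : extK K (x + y) v = extK K x v + extK K y v := by
  unfold extK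
  split_ifs <;> simp

theorem extK_smul (a : ℚ) (x : K → ℚ) (v : V) : extK K (a • x) v = a * extK K x v := by
  unfold extK
  split_ifs <;> simp

/-- the boundary of a function on the faces of `K` -/
def DK : (K → ℚ) →ₗ[ℚ] (EK M K → ℚ) where
  toFun x p := extK K x (M.c (p.1.2 + 1) p.1.1) - extK K x (M.c (p.1.2 + 2) p.1.1)
  map_add' x y := by
    funext p
    simp only [Pi.add_apply, extK_add]
    ring
  map_smul' a x := by
    funext p
    simp only [Pi.smul_apply, extK_smul, smul_eq_mul, RingHom.id_apply]
    ring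

theorem DK_apply (x : K → ℚ) (p : EK M K) : DK M K x p =
    extK K x (M.c (p.1.2 + 1) p.1.1) - extK K x (M.c (p.1.2 + 2) p.1.1) := rfl

theorem onK_of_mem (p : EK M K) : OnK M K p.1 := (mem_filter.1 p.2).2

/-- the black end -/
def sK (p : EK M K) : XK M K := Sum.inl ⟨p.1.1, nb_pos_of_onK M K (onK_of_mem M K p)⟩

/-- the white end -/
def tK (p : EK M K) : XK M K :=
  Sum.inr ⟨M.e p.1.2 p.1.1, nw_pos_of_onK M K (onK_of_mem M K p)⟩

theorem sum_fin3 (g : Fin 3 → ℚ) : ∑ i, (g (i + 1) - g (i + 2)) = 0 := by
  simp only [Fin.sum_univ_three]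
  have h1 : (0 : Fin 3) + 1 = 1 := rfl
  have h2 : (0 : Fin 3) + 2 = 2 := rfl
  have h3 : (1 : Fin 3) + 1 = 2 := rfl
  have h4 : (1 : Fin 3) + 2 = 0 := rfl
  have h5 : (2 : Fin 3) + 1 = 0 := rfl
  have h6 : (2 : Fin 3) + 2 = 1 := rfl
  rw [h1, h2, h3, h4, h5, h6]
  ring

theorem ext_zero {x : K → ℚ} {b : B} {i : Fin 3} (h : ¬ OnK M K (b, i)) :
    extK K x (M.c (i + 1) b) - extK K x (M.c (i + 2) b) = 0 := by
  unfold OnK at h
  push Not at h
  unfold extK
  rw [dif_neg h.1, dif_neg h.2, sub_zero]

theorem div_black (x : K → ℚ) (b : {b : B // 0 < nb M K b}) :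
    (∑ p, if sK M K p = Sum.inl b then DK M K x p else 0) = 0 := by
  have h1 : (∑ p : EK M K, if sK M K p = Sum.inl b then DK M K x p else 0) =
      ∑ p : EK M K, (fun q : B × Fin 3 => if q.1 = b.1 then
        extK K x (M.c (q.2 + 1) q.1) - extK K x (M.c (q.2 + 2) q.1) else 0) p.1 := by
    refine sum_congr rfl fun p _ => ?_
    simp only [DK_apply, sK, Sum.inl.injEq, Subtype.ext_iff]
  rw [h1, sum_coe_sort (EK M K) (fun q : B × Fin 3 => if q.1 = b.1 then
        extK K x (M.c (q.2 + 1) q.1) - extK K x (M.c (q.2 + 2) q.1) else 0)]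
  unfold EK
  rw [sum_filter, Fintype.sum_prod_type, sum_eq_single b.1]
  · refine Eq.trans ?_ (sum_fin3 fun j => extK K x (M.c j b.1))
    refine sum_congr rfl fun i _ => ?_
    simp only [if_true]
    split_ifs with h
    · rfl
    · exact (ext_zero M K h).symm
  · intro b' _ hb'
    refine sum_eq_zero fun i _ => ?_
    simp [hb']
  · intro h
    exact absurd (mem_univ _) h

theorem div_white (x : K → ℚ) (w : {w : W // 0 < nw M K w}) :
    (∑ p, if tK M K p = Sum.inr w then DK M K x p else 0) = 0 := by
  have h1 : (∑ p : EK M K, if tK M K p = Sum.inr w then DK M K x p else 0) =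
      ∑ p : EK M K, (fun q : B × Fin 3 => if M.e q.2 q.1 = w.1 then
        extK K x (M.c (q.2 + 1) q.1) - extK K x (M.c (q.2 + 2) q.1) else 0) p.1 := by
    refine sum_congr rfl fun p _ => ?_
    simp only [DK_apply, tK, Sum.inr.injEq, Subtype.ext_iff]
  rw [h1, sum_coe_sort (EK M K) (fun q : B × Fin 3 => if M.e q.2 q.1 = w.1 then
        extK K x (M.c (q.2 + 1) q.1) - extK K x (M.c (q.2 + 2) q.1) else 0)]
  unfold EK
  rw [sum_filter, Fintype.sum_prod_type, sum_comm]
  have h2 : ∀ i : Fin 3, (∑ b : B, if OnK M K (b, i) then (if M.e i b = w.1 then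
        extK K x (M.c (i + 1) b) - extK K x (M.c (i + 2) b) else 0) else 0) =
      extK K x (M.cw (i + 1) w.1) - extK K x (M.cw (i + 2) w.1) := by
    intro i
    rw [sum_eq_single ((M.e i).symm w.1)]
    · simp only [Equiv.apply_symm_apply, if_true]
      rw [← M.cw_symm (i + 1) i (fne1 i).symm w.1, ← M.cw_symm (i + 2) i (fne2 i).symm w.1]
      split_ifs with h
      · rfl
      · exact (ext_zero M K h).symm
    · intro b _ hb
      have : M.e i b ≠ w.1 := fun h => hb (by rw [← h, Equiv.symm_apply_apply])
      simp [this]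
    · intro h
      exact absurd (mem_univ _) h
  rw [sum_congr rfl fun i _ => h2 i]
  exact sum_fin3 fun j => extK K x (M.cw j w.1)

theorem div_eq (x : K → ℚ) (v : XK M K) : (∑ p, if tK M K p = v then DK M K x p else 0) =
    ∑ p, if sK M K p = v then DK M K x p else 0 := by
  rcases v with b | w
  · rw [div_black]
    refine sum_eq_zero fun p _ => ?_
    simp [tK]
  · rw [div_white]
    symm
    refine sum_eq_zero fun p _ => ?_
    simp [sK]

theorem DK_inj (hc : M.Conn) (hK : ∃ b j, M.c j b ∉ K) : Function.Injective (DK M K) := by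
  rw [injective_iff_map_eq_zero]
  intro x hx
  -- constant at every black
  have h1 : ∀ b i, extK K x (M.c (i + 1) b) = extK K x (M.c (i + 2) b) := by
    intro b i
    by_cases h : OnK M K (b, i)
    · have := congrFun hx ⟨(b, i), mem_filter.2 ⟨mem_univ _, h⟩⟩
      rw [DK_apply] at this
      simp only [Pi.zero_apply] at this
      linarith
    · have := ext_zero M K (x := x) h
      linarith
  have h2 : ∀ b j j', extK K x (M.c j b) = extK K x (M.c j' b) := by
    intro b
    have a0 := h1 b 0
    have a1 := h1 b 1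
    have a2 := h1 b 2
    have e1 : (0 : Fin 3) + 1 = 1 := rfl
    have e2 : (0 : Fin 3) + 2 = 2 := rfl
    have e3 : (1 : Fin 3) + 1 = 2 := rfl
    have e4 : (1 : Fin 3) + 2 = 0 := rfl
    rw [e1, e2] at a0
    rw [e3, e4] at a1
    intro j j'
    fin_cases j <;> fin_cases j' <;> simp_all
  have h3 : ∀ b b', extK K x (M.c 0 b) = extK K x (M.c 0 b') := by
    intro b b'
    induction hc b b' with
    | rel y z h =>
      obtain ⟨j, hj⟩ := h
      rw [h2 y 0 j, hj, h2 z j 0]
    | refl y => rfl
    | symm y z _ ih => exact ih.symm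
    | trans y z u _ _ ih1 ih2 => exact ih1.trans ih2
  obtain ⟨b0, j0, hb0⟩ := hK
  have h4 : ∀ v, extK K x v = 0 := by
    intro v
    obtain ⟨j, b, rfl⟩ := M.surj v
    rw [h2 b j 0, h3 b b0, h2 b0 0 j0]
    unfold extK
    rw [dif_neg hb0]
  funext v
  have := h4 v.1
  unfold extK at this
  rw [dif_pos v.2] at this
  exact this

/-- functions which are constant along the edges on the faces of `K` are constant -/
theorem connX (hcon : ConnK M K) (y : XK M K → ℚ)
    (hy : ∀ p, y (sK M K p) = y (tK M K p)) : ∀ v v', y v = y v' := by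
  classical
  set Y : B → ℚ := fun b => if h : 0 < nb M K b then y (Sum.inl ⟨b, h⟩) else 0 with hY
  have hYb : ∀ b (h : 0 < nb M K b), y (Sum.inl ⟨b, h⟩) = Y b := by
    intro b h
    simp only [hY, dif_pos h]
  have edge : ∀ b i (h : OnK M K (b, i)), y (Sum.inr ⟨M.e i b, nw_pos_of_onK M K h⟩) = Y b := by
    intro b i h
    have := hy ⟨(b, i), mem_filter.2 ⟨mem_univ _, h⟩⟩
    simp only [sK, tK] at this
    rw [← this]
    exact hYb b _
  have key : ∀ j b b', Relation.EqvGen (fun x y => M.e (j + 1) y = M.e (j + 2) x) b b' →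
      M.c j b ∈ K → Y b = Y b' := by
    intro j b b' h
    induction h with
    | rel x z hxz =>
      intro hx
      have hz : M.c j z ∈ K := by rw [M.step _ _ _ hxz]; exact hx
      have o1 : OnK M K (x, j + 2) := by
        left
        simp only [f21]
        exact hx
      have o2 : OnK M K (z, j + 1) := by
        right
        simp only [f12]
        exact hz
      have e1 := edge x (j + 2) o1
      have e2 := edge z (j + 1) o2
      rw [← e1, ← e2]
      congr 2
      exact Subtype.ext hxz.symm
    | refl x => intro _; rfl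
    | symm x z h ih =>
      intro hz
      exact (ih (by rw [M.c_of_eqvGen h]; exact hz)).symm
    | trans x z u h1 h2 ih1 ih2 =>
      intro hx
      exact (ih1 hx).trans (ih2 (by rw [← M.c_of_eqvGen h1]; exact hx))
  have face : ∀ j b b', M.c j b = M.c j b' → M.c j b ∈ K → Y b = Y b' := fun j b b' h hb =>
    key j b b' (M.exact j b b' h) hb
  have main : ∀ b b', 0 < nb M K b → 0 < nb M K b' → Y b = Y b' := by
    intro b b' hb hb'
    set K1 : Finset V := K.filter fun v => ∃ j d, M.c j d = v ∧ Y d = Y b with hK1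
    have h1 : K1 = K := by
      apply hcon K1 (filter_subset _ _)
      · obtain ⟨j, hj⟩ := (nb_pos M K b).1 hb
        exact ⟨_, mem_filter.2 ⟨hj, j, b, rfl, rfl⟩⟩
      · intro d
        by_cases hd : Y d = Y b
        · left
          intro j hj
          exact mem_filter.2 ⟨hj, j, d, rfl, hd⟩
        · right
          intro j hj hj2
          obtain ⟨_, j', d', h2, h3⟩ := mem_filter.1 hj2
          have h4 := M.cls _ _ _ _ h2
          subst h4
          apply hd
          rw [← h3]
          exact (face _ _ _ h2 (by rw [h2]; exact hj)).symm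
    obtain ⟨j, hj⟩ := (nb_pos M K b').1 hb'
    rw [← h1] at hj
    obtain ⟨h5, j', d', h2, h3⟩ := mem_filter.1 hj
    have h4 := M.cls _ _ _ _ h2
    subst h4
    rw [← h3]
    exact face _ _ _ h2 (by rw [h2]; exact h5)
  have white : ∀ w : {w : W // 0 < nw M K w}, ∃ b, 0 < nb M K b ∧ y (Sum.inr w) = Y b := by
    intro w
    obtain ⟨j, hj⟩ := (nw_pos M K w.1).1 w.2
    have o : OnK M K ((M.e (j + 1)).symm w.1, j + 1) := by
      right
      simp only [f12]
      exact hj
    refine ⟨(M.e (j + 1)).symm w.1, nb_pos_of_onK M K o, ?_⟩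
    rw [← edge _ _ o]
    congr 2
    exact Subtype.ext (by simp)
  have all : ∀ v : XK M K, ∃ b, 0 < nb M K b ∧ y v = Y b := by
    rintro (b | w)
    · exact ⟨b.1, b.2, hYb b.1 b.2⟩
    · exact white w
  intro v v'
  obtain ⟨b, hb, h1⟩ := all v
  obtain ⟨b', hb', h2⟩ := all v'
  rw [h1, h2]
  exact main b b' hb hb'

theorem rankK (hc : M.Conn) (hcon : ConnK M K) (hK : ∃ b j, M.c j b ∉ K) :
    K.card + ((univ.filter fun b => 0 < nb M K b).card + (univ.filter fun w => 0 < nw M K w).card)
      ≤ (EK M K).card + 1 := by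
  have h := L2.card_add_card_le (sK M K) (tK M K) (connX M K hcon) (DK M K) (DK_inj M K hc hK)
    (fun n v => div_eq M K n v)
  rw [Fintype.card_coe, Fintype.card_coe, Fintype.card_sum, Fintype.card_subtype,
    Fintype.card_subtype] at h
  exact h

/-- the number of edges which leave the set of the blacks in `S` and the whites in `T` -/
def cutN (S : Finset B) (T : Finset W) : ℕ :=
  (univ.filter fun p : B × Fin 3 => ¬ (p.1 ∈ S ↔ M.e p.2 p.1 ∈ T)).card

theorem cutN_eq (S : Finset B) (T : Finset W) : cutN M S T =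
    (univ.filter fun p : B × Fin 3 => p.1 ∈ S ∧ ¬ M.e p.2 p.1 ∈ T).card +
    (univ.filter fun p : B × Fin 3 => ¬ p.1 ∈ S ∧ M.e p.2 p.1 ∈ T).card := by
  unfold cutN
  rw [← card_filter_add_card_filter_not
    (s := univ.filter fun p : B × Fin 3 => ¬ (p.1 ∈ S ↔ M.e p.2 p.1 ∈ T))
      (fun p => p.1 ∈ S), filter_filter, filter_filter]
  congr 2
  · ext p
    simp only [mem_filter, mem_univ, true_and]
    tauto
  · ext p
    simp only [mem_filter, mem_univ, true_and]
    tauto

/-- cyclic 4-edge-connectivity: only trivial edge cuts have fewer than four edges -/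
def Cyc4 : Prop := ∀ (S : Finset B) (T : Finset W), 2 ≤ S.card + T.card →
  2 ≤ Sᶜ.card + Tᶜ.card → 4 ≤ cutN M S T

theorem six_le (h4 : Cyc4 M) (b0 : B) (hK0 : K.Nonempty) (hb0 : ∀ j, M.c j b0 ∉ K) :
    6 ≤ (univ.filter fun b => nb M K b = 1).card +
      2 * (univ.filter fun w => nw M K w = 1).card := by
  obtain ⟨ch, b', w', E', hb', hw', h1, h2, h3, h5⟩ := counts M K
  rw [h1, h2]
  set S : Finset B := univ.filter fun b => 0 < nb M K b with hS
  set T : Finset W := univ.filter fun w => 0 < nw M K w with hT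
  have hcut : cutN M S T = b' + w' := by
    rw [cutN_eq, ← hb', ← hw']
    simp only [hS, hT, mem_filter, mem_univ, true_and]
  have hX : 2 ≤ S.card + T.card := by
    obtain ⟨v, hv⟩ := hK0
    obtain ⟨j, b, rfl⟩ := M.surj v
    have n1 : 0 < nb M K b := (nb_pos M K b).2 ⟨j, hv⟩
    have n2 : 0 < nw M K (M.e (j + 1) b) := (nw_pos M K _).2 ⟨j, by rw [M.cw_e1]; exact hv⟩
    have hs : b ∈ S := by
      rw [hS, mem_filter]
      exact ⟨mem_univ _, n1⟩
    have ht : M.e (j + 1) b ∈ T := by
      rw [hT, mem_filter]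
      exact ⟨mem_univ _, n2⟩
    have c1 := card_pos.2 ⟨_, hs⟩
    have c2 := card_pos.2 ⟨_, ht⟩
    omega
  have hb0S : b0 ∉ S := by
    intro h
    rw [hS, mem_filter] at h
    obtain ⟨j, hj⟩ := (nb_pos M K b0).1 h.2
    exact hb0 j hj
  by_cases hY : 2 ≤ Sᶜ.card + Tᶜ.card
  · have := h4 S T hX hY
    rw [hcut] at this
    omega
  · have hSc : 1 ≤ Sᶜ.card := card_pos.2 ⟨b0, by simpa using hb0S⟩
    have hTc : Tᶜ = ∅ := by
      rw [← card_eq_zero]
      omega
    have hTu : ∀ w, w ∈ T := by
      intro w
      by_contra hw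
      have : w ∈ Tᶜ := by simpa using hw
      rw [hTc] at this
      simp at this
    have : 3 ≤ w' := by
      rw [← hw']
      have h6 : ((univ : Finset (Fin 3)).image fun i => (b0, i)).card = 3 := by
        rw [card_image_of_injective _ (fun x y hxy => by simpa using hxy)]
        rfl
      refine h6.symm.le.trans (card_le_card ?_)
      intro p hp
      simp only [mem_image, mem_univ, true_and] at hp
      obtain ⟨i, rfl⟩ := hp
      rw [mem_filter]
      refine ⟨mem_univ _, ?_, ?_⟩
      · intro h
        apply hb0S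
        rw [hS, mem_filter]
        exact ⟨mem_univ _, h⟩
      · have h7 := hTu (M.e i b0)
        rw [hT, mem_filter] at h7
        exact h7.2
    omega

/-- Step 5: the Hall condition with multiplicity two. -/
theorem hall (hs : M.Sph) (h4 : Cyc4 M) (b0 : B) : ∀ (n : ℕ) (K : Finset V), K.card = n →
    (∀ j, M.c j b0 ∉ K) → 2 * K.card ≤ ∑ b, min 2 (nb M K b) := by
  intro n
  induction n using Nat.strong_induction_on with
  | _ n ih =>
    intro K hn hK
    by_cases hcon : ConnK M K
    · rcases K.eq_empty_or_nonempty with h0 | h0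
      · subst h0
        simp
      · have h1 := rankK M K hs.conn hcon ⟨b0, 0, hK 0⟩
        have h2 := six_le M K h4 b0 h0 hK
        have h3 := card_EK_black M K
        have h5 := card_EK_white M K
        rw [sum_gg] at h3 h5
        rw [card_posi, card_posi] at h1
        rw [sum_min]
        omega
    · unfold ConnK at hcon
      push Not at hcon
      obtain ⟨K1, hsub, hne, hsplit, hneq⟩ := hcon
      have hlt : K1.card < K.card := card_lt_card (hsub.ssubset_of_ne hneq)
      have hpos : 0 < K1.card := card_pos.2 hne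
      have hlt2 : (K \ K1).card < K.card := by
        have := card_sdiff_add_card_eq_card hsub
        omega
      have e1 := ih K1.card (by omega) K1 rfl (fun j hj => hK j (hsub hj))
      have e2 := ih (K \ K1).card (by omega) (K \ K1) rfl
        (fun j hj => hK j (mem_sdiff.1 hj).1)
      have e3 : ∀ b, min 2 (nb M K1 b) + min 2 (nb M (K \ K1) b) = min 2 (nb M K b) := by
        intro b
        rcases hsplit b with h | h
        · have h6 : nb M K1 b = nb M K b := by
            unfold nb
            congr 1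
            ext j
            simp only [mem_filter, mem_univ, true_and]
            exact ⟨fun hj => hsub hj, fun hj => h j hj⟩
          have h7 : nb M (K \ K1) b = 0 := by
            unfold nb
            rw [card_eq_zero, filter_eq_empty_iff]
            intro j _ hj
            rw [mem_sdiff] at hj
            exact hj.2 (h j hj.1)
          rw [h6, h7]
          simp
        · have h6 : nb M K1 b = 0 := by
            unfold nb
            rw [card_eq_zero, filter_eq_empty_iff]
            intro j _ hj
            exact h j (hsub hj) hj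
          have h7 : nb M (K \ K1) b = nb M K b := by
            unfold nb
            congr 1
            ext j
            simp only [mem_filter, mem_univ, true_and, mem_sdiff]
            exact ⟨fun hj => hj.1, fun hj => ⟨hj, h j hj⟩⟩
          rw [h6, h7]
          simp
      have e4 : ∑ b, min 2 (nb M K b) =
          ∑ b, min 2 (nb M K1 b) + ∑ b, min 2 (nb M (K \ K1) b) := by
        rw [← sum_add_distrib]
        exact sum_congr rfl fun b _ => (e3 b).symm
      have e5 := card_sdiff_add_card_eq_card hsub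
      rw [e4]
      omega

/-- **Step 5.** In a cyclically 4-edge-connected plane web there are two disjoint matchings of the
blacks `≠ b0` with the faces not at `b0`. -/
theorem step5 (hs : M.Sph) (h4 : Cyc4 M) (b0 : B) : ∃ f g : B → Fin 3, (∀ b, f b ≠ g b) ∧
    (∀ b, b ≠ b0 → ∀ j, M.c (f b) b ≠ M.c j b0) ∧ (∀ b, b ≠ b0 → ∀ j, M.c (g b) b ≠ M.c j b0) ∧
    (∀ b b', b ≠ b0 → b' ≠ b0 → M.c (f b) b = M.c (f b') b' → b = b') ∧
    (∀ b b', b ≠ b0 → b' ≠ b0 → M.c (g b) b = M.c (g b') b' → b = b') ∧
    (∀ v, (∀ j, M.c j b0 ≠ v) → ∃ b, b ≠ b0 ∧ M.c (f b) b = v) ∧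
    (∀ v, (∀ j, M.c j b0 ≠ v) → ∃ b, b ≠ b0 ∧ M.c (g b) b = v) := by
  set R : Finset V := univ.image fun j => M.c j b0 with hR
  have hRc : R.card = 3 := by
    rw [hR, card_image_of_injective _ (fun j j' h => M.cls _ _ _ _ h)]
    rfl
  have memR : ∀ v, v ∈ Rᶜ ↔ ∀ j, M.c j b0 ≠ v := by
    intro v
    simp [hR]
  obtain ⟨f, g, hfg, hf, hg⟩ := two_matchings' (fun b j => M.c j b) (univ.erase b0) Rᶜ
    (by
      have h1 := card_compl_add_card R
      have h2 := card_erase_of_mem (mem_univ b0)
      have h3 := hs.card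
      have h4 : (univ : Finset B).card = Fintype.card B := rfl
      have h5 : 0 < Fintype.card B := Fintype.card_pos_iff.2 ⟨b0⟩
      omega)
    (by
      intro K hK
      have hK0 : ∀ j, M.c j b0 ∉ K := fun j hj => (memR _).1 (hK hj) j rfl
      have h1 := hall M hs h4 b0 K.card K rfl hK0
      have h2 : ∑ b, min 2 (nb M K b) =
          min 2 (nb M K b0) + ∑ b ∈ univ.erase b0, min 2 (nb M K b) :=
        (add_sum_erase univ _ (mem_univ b0)).symm
      have h3 : nb M K b0 = 0 := by
        unfold nb
        rw [card_eq_zero, filter_eq_empty_iff]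
        intro j _ hj
        exact hK0 j hj
      rw [h2, h3] at h1
      simpa [nb] using h1)
  refine ⟨f, g, hfg, ?_, ?_, ?_, ?_, ?_, ?_⟩
  · intro b hb j hj
    have : M.c (f b) b ∈ Rᶜ := by
      simpa using hf.1 (show b ∈ ((univ.erase b0 : Finset B) : Set B) by simp [hb])
    exact (memR _).1 this j hj.symm
  · intro b hb j hj
    have : M.c (g b) b ∈ Rᶜ := by
      simpa using hg.1 (show b ∈ ((univ.erase b0 : Finset B) : Set B) by simp [hb])
    exact (memR _).1 this j hj.symm
  · intro b b' hb hb' h
    exact hf.2.1 (by simp [hb]) (by simp [hb']) h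
  · intro b b' hb hb' h
    exact hg.2.1 (by simp [hb]) (by simp [hb']) h
  · intro v hv
    obtain ⟨b, hb, h⟩ := hf.2.2 (show v ∈ ((Rᶜ : Finset V) : Set V) by
      exact_mod_cast (memR v).2 hv)
    exact ⟨b, by simpa using hb, h⟩
  · intro v hv
    obtain ⟨b, hb, h⟩ := hg.2.2 (show v ∈ ((Rᶜ : Finset V) : Set V) by
      exact_mod_cast (memR v).2 hv)
    exact ⟨b, by simpa using hb, h⟩

end rank

end Vale.Agent.P039.H484
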