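import Vale.Agent.P039.H484.Cut
import Vale.Agent.P039.Bn.L2.Defs

/-! Step 5 in the form of `Bn/L2/Defs.lean`. -/

namespace Vale.Agent.P039.H484

open Vale.Agent.P039.Bn

variable {B W V : Type} [Fintype B] [Fintype W] [Fintype V] [DecidableEq B] [DecidableEq W]
  [DecidableEq V] (M : PMap B W V)

/-- **Step 5.** In a cyclically 4-edge-connected plane web there are two disjoint matchings. -/
theorem step5' (hs : M.Sph) (h4 : Cyc4 M) (b0 : B) : ∃ f g : B → Fin 3, (∀ b, f b ≠ g b) ∧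
    M.IsMatch b0 f ∧ M.IsMatch b0 g := by
  obtain ⟨f, g, h, a1, a2, i1, i2, s1, s2⟩ := step5 M hs h4 b0
  exact ⟨f, g, h, ⟨i1, s1, a1⟩, ⟨i2, s2, a2⟩⟩

end Vale.Agent.P039.H484
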